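import Crest.Agent.R269.C.Tame

/-!
# Row 269, block C5: uniform limits, oscillation of the logarithm
-/

set_option autoImplicit false
set_option linter.unusedSectionVars false
set_option linter.unusedVariables false

noncomputable section

namespace Crest.Agent.R269

open Set Metric Filter Topology MeasureTheory Matrix
open Crest.AlgGeometry.ProjEmb
open scoped InnerProductSpace ContDiff

namespace C5

theorem unif_comp {α E F ι : Type*} [PseudoMetricSpace E] [PseudoMetricSpace F] {l : Filter ι}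
    {g : ι → α → E} {g₀ : α → E} {s : Set α} {K S : Set E} (hK : IsCompact K) (hKS : K ⊆ S)
    {f : E → F} (hf : ContinuousOn f S) (h0 : ∀ x ∈ s, g₀ x ∈ K) (hg : ∀ᶠ k in l, ∀ x ∈ s, g k x ∈ S)
    (h : TendstoUniformlyOn g g₀ l s) :
    TendstoUniformlyOn (fun k x => f (g k x)) (fun x => f (g₀ x)) l s := by
  have hK' : IsCompact (Subtype.val ⁻¹' K : Set S) :=
    Topology.IsInducing.subtypeVal.isCompact_preimage' hK (by simpa using hKS)
  rw [Metric.tendstoUniformlyOn_iff] at h ⊢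
  intro ε hε
  have h1 := hK'.uniformContinuousAt_of_continuousAt (S.domRestrict f)
    (fun a _ => (continuousOn_iff_continuous_domRestrict.1 hf).continuousAt) (Metric.dist_mem_uniformity hε)
  obtain ⟨δ, hδ, h2⟩ := Metric.mem_uniformity_dist.1 h1
  filter_upwards [h δ hδ, hg] with k hk hk' x hx
  exact h2 (a := ⟨g₀ x, hKS (h0 x hx)⟩) (b := ⟨g k x, hk' x hx⟩) (hk x hx) (h0 x hx)

theorem tendsto_avg {ι : Type*} {l : Filter ι} {f : ι → ℂ → ℝ} {g : ℂ → ℝ}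
    (hf : ∀ᶠ k in l, ContinuousOn (f k) (closedBall 0 1)) (hg : ContinuousOn g (closedBall 0 1))
    (h : TendstoUniformlyOn f g l (closedBall 0 1)) :
    Tendsto (fun k => Real.circleAverage (f k) 0 1) l (𝓝 (Real.circleAverage g 0 1)) := by
  have hm : ∀ θ, circleMap 0 1 θ ∈ closedBall (0 : ℂ) 1 := fun θ => circleMap_mem_closedBall 0 zero_le_one θ
  have hi : ∀ {φ : ℂ → ℝ}, ContinuousOn φ (closedBall 0 1) → Integrable (fun θ => φ (circleMap 0 1 θ)) mu :=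
    fun hφ => integrable_mu (hφ.comp_continuous (continuous_circleMap 0 1) hm)
  simp only [circleAverage_eq_mu]
  rw [Metric.tendstoUniformlyOn_iff] at h
  refine Metric.tendsto_nhds.2 fun ε hε => ?_
  filter_upwards [h (ε / 2) (half_pos hε), hf] with k hk hk'
  rw [dist_eq_norm, ← integral_sub (hi hk') (hi hg)]
  refine (norm_integral_le_of_norm_le_const (C := ε / 2) (Eventually.of_forall fun θ => ?_)).trans_lt ?_
  · rw [← dist_eq_norm, dist_comm]
    exact (hk _ (hm θ)).le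
  · simpa using hε

theorem norm_sq_Lp (g : Lp ℂ 2 mu) : ‖g‖ ^ 2 = ∫ θ, ‖g θ‖ ^ 2 ∂mu := by
  rw [@norm_sq_eq_re_inner ℂ, L2.inner_def, ← integral_re (L2.integrable_inner g g)]
  simp only [inner_self_eq_norm_sq_to_K]
  norm_cast

theorem integrable_sq (g : Lp ℂ 2 mu) : Integrable (fun θ => ‖g θ‖ ^ 2) mu :=
  (Lp.memLp g).integrable_norm_pow (p := 2) two_ne_zero

theorem integrable_mul {f g : ℝ → ℝ} (hf : Integrable f mu) (hg : Continuous g) :
    Integrable (fun θ => f θ * g θ) mu := by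
  have h0 : ENNReal.ofReal (2 * Real.pi)⁻¹ ≠ 0 := by
    simpa using Real.pi_pos
  rw [mu, integrable_smul_measure h0 ENNReal.ofReal_ne_top] at hf ⊢
  exact IntegrableOn.mul_continuousOn_of_subset hf hg.continuousOn measurableSet_Ioc isCompact_Icc
    Ioc_subset_Icc_self

variable (P : HA)

theorem der_pow (w : P.H) (k : ℕ) :
    P.der (w ^ (k + 1)) =ᵐ[mu] fun θ => (k + 1 : ℂ) * P.val θ w ^ k * P.der w θ := by
  induction k with
  | zero => simp
  | succ k ih =>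
    rw [pow_succ]
    filter_upwards [P.der_mul (w ^ (k + 1)) w, ih] with θ h1 h2
    rw [h1, h2, map_pow]
    push_cast
    ring

theorem der_logp (w : P.H) (n : ℕ) :
    P.der (∑ k ∈ Finset.range n, (k + 1 : ℂ)⁻¹ • w ^ (k + 1)) =ᵐ[mu]
      fun θ => (∑ k ∈ Finset.range n, P.val θ w ^ k) * P.der w θ := by
  induction n with
  | zero =>
    rw [Finset.sum_range_zero, map_zero]
    filter_upwards [Lp.coeFn_zero ℂ 2 mu] with θ h
    simp
  | succ n ih =>
    rw [Finset.sum_range_succ, map_add, map_smul]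
    filter_upwards [Lp.coeFn_add (P.der (∑ k ∈ Finset.range n, (k + 1 : ℂ)⁻¹ • w ^ (k + 1)))
      ((n + 1 : ℂ)⁻¹ • P.der (w ^ (n + 1))), Lp.coeFn_smul (n + 1 : ℂ)⁻¹ (P.der (w ^ (n + 1))), ih,
      der_pow P w n] with θ h1 h2 h3 h4
    have : (n + 1 : ℂ) ≠ 0 := by exact_mod_cast Nat.succ_ne_zero n
    rw [h1, Pi.add_apply, h2, Pi.smul_apply, h3, h4, Finset.sum_range_succ, smul_eq_mul]
    field_simp

/-- Oscillation of the logarithm of a positive element of `H`. -/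
theorem osc_log {x : P.H} {r φ : ℝ → ℝ} (hr : ∀ θ, P.val θ x = r θ) (hpos : ∀ θ, 0 < r θ)
    (hφ : Integrable φ mu) (h : ∀ᵐ θ ∂mu, ‖P.der x θ‖ ^ 2 ≤ r θ ^ 2 * φ θ) (θ θ' : ℝ) :
    |Real.log (r θ) - Real.log (r θ')| ≤ 2 * Real.pi * √(∫ θ, φ θ ∂mu) := by
  set C : ℝ := ‖x‖ + 1 with hC
  have hC0 : 0 < C := by positivity
  have hrC : ∀ θ, r θ < C := fun θ => by
    have := P.norm_val x θ
    rw [hr, Complex.norm_real, Real.norm_of_nonneg (hpos θ).le] at this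
    linarith
  set w : P.H := 1 - ((C⁻¹ : ℝ) : ℂ) • x with hw
  have hρ : ∀ θ, P.val θ w = ((1 - r θ / C : ℝ) : ℂ) := fun θ => by
    rw [hw, map_sub, map_one, map_smul, hr, smul_eq_mul]
    push_cast
    ring
  have hρ0 : ∀ θ, 0 ≤ 1 - r θ / C := fun θ => sub_nonneg.2 ((div_le_one hC0).2 (hrC θ).le)
  have hρ1 : ∀ θ, 1 - r θ / C < 1 := fun θ => sub_lt_self _ (div_pos (hpos θ) hC0)
  have hdw : P.der w =ᵐ[mu] fun θ => -(((C⁻¹ : ℝ) : ℂ) * P.der x θ) := by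
    rw [hw, map_sub, P.der_one, zero_sub, map_smul]
    filter_upwards [Lp.coeFn_neg (((C⁻¹ : ℝ) : ℂ) • P.der x), Lp.coeFn_smul ((C⁻¹ : ℝ) : ℂ) (P.der x)]
      with θ h1 h2
    rw [h1, Pi.neg_apply, h2, Pi.smul_apply, smul_eq_mul]
  have hb : ∀ n, ‖P.der (∑ k ∈ Finset.range n, (k + 1 : ℂ)⁻¹ • w ^ (k + 1))‖ ≤ √(∫ θ, φ θ ∂mu) := fun n => by
    refine Real.le_sqrt_of_sq_le ?_
    rw [norm_sq_Lp]
    refine integral_mono_ae (integrable_sq _) hφ ?_
    filter_upwards [der_logp P w n, hdw, h] with θ h1 h2 h3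
    have h4 : ∑ k ∈ Finset.range n, (1 - r θ / C) ^ k ≤ C / r θ := by
      refine ((summable_geometric_of_lt_one (hρ0 θ) (hρ1 θ)).sum_le_tsum _
        fun k _ => pow_nonneg (hρ0 θ) k).trans_eq ?_
      rw [tsum_geometric_of_lt_one (hρ0 θ) (hρ1 θ), sub_sub_cancel, inv_div]
    have h5 : 0 ≤ ∑ k ∈ Finset.range n, (1 - r θ / C) ^ k :=
      Finset.sum_nonneg fun k _ => pow_nonneg (hρ0 θ) k
    have h6 : ‖∑ k ∈ Finset.range n, P.val θ w ^ k‖ ≤ C / r θ := by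
      rw [hρ]
      norm_cast
      rwa [Real.norm_of_nonneg h5]
    rw [h1, h2, norm_mul, norm_neg, norm_mul, Complex.norm_real, Real.norm_of_nonneg (by positivity)]
    have h7 := hpos θ
    calc _ ≤ (C / r θ * (C⁻¹ * ‖P.der x θ‖)) ^ 2 := by gcongr
      _ = ‖P.der x θ‖ ^ 2 / r θ ^ 2 := by field_simp
      _ ≤ φ θ := by rw [div_le_iff₀ (by positivity)]; linarith
  have hl : ∀ θ, Tendsto (fun n => P.val θ (∑ k ∈ Finset.range n, (k + 1 : ℂ)⁻¹ • w ^ (k + 1))) atTop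
      (𝓝 ((-(Real.log (r θ) - Real.log C) : ℝ) : ℂ)) := fun θ => by
    have h1 := (Real.hasSum_pow_div_log_of_abs_lt_one (x := 1 - r θ / C)
      (by rw [abs_of_nonneg (hρ0 θ)]; exact hρ1 θ)).tendsto_sum_nat
    rw [sub_sub_cancel, Real.log_div (hpos θ).ne' hC0.ne'] at h1
    refine ((Complex.continuous_ofReal.tendsto _).comp h1).congr fun n => ?_
    simp only [Function.comp, map_sum, map_smul, map_pow, hρ, smul_eq_mul]
    push_cast
    exact Finset.sum_congr rfl fun k _ => by rw [div_eq_inv_mul]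
  have h1 := le_of_tendsto' ((hl θ).sub (hl θ')).norm fun n => (P.osc _ θ θ').trans
    (mul_le_mul_of_nonneg_left (hb n) (by positivity))
  rw [← Complex.ofReal_sub, Complex.norm_real, Real.norm_eq_abs, abs_sub_comm] at h1
  refine le_trans (le_of_eq ?_) h1
  congr 1
  ring

variable {κ κ' : Type} [Fintype κ] [Fintype κ']

theorem osc_logV {G : κ → P.A} (hG : ∀ θ, P.valV θ G ≠ 0) (θ θ' : ℝ) :
    |Real.log (‖P.valV θ G‖ ^ 2) - Real.log (‖P.valV θ' G‖ ^ 2)| ≤ 2 * Real.pi * √(8 * P.reg G) := by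
  obtain ⟨o, o', -, h1, -, h2, -⟩ := P.outerV hG
  have hp : ∀ θ, 0 < ‖P.valV θ G‖ := fun θ => norm_pos_iff.2 (hG θ)
  refine (osc_log P (x := star (P.ι o) * P.ι o) (r := fun θ => ‖P.valV θ G‖ ^ 2)
    (φ := fun θ => 4 * (‖P.der (P.ι o) θ‖ ^ 2 / ‖P.val θ (P.ι o)‖ ^ 2)) (fun θ => ?_)
    (fun θ => pow_pos (hp θ) 2) (Integrable.const_mul ?_ _) ?_ θ θ').trans ?_
  · rw [map_mul, P.val_star, ← h1, Complex.star_def, Complex.conj_mul']
    norm_cast
  · simp only [div_eq_mul_inv, h1]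
    exact integrable_mul (integrable_sq _)
      (((P.continuous_valV G).norm.pow 2).inv₀ fun θ => (pow_pos (hp θ) 2).ne')
  · filter_upwards [P.der_mul (star (P.ι o)) (P.ι o), P.der_star (P.ι o)] with θ h3 h4
    have h5 : ‖P.der (star (P.ι o) * P.ι o) θ‖ ≤ 2 * (‖P.valV θ G‖ * ‖P.der (P.ι o) θ‖) := by
      rw [h3, h4, P.val_star]
      refine (norm_add_le _ _).trans ?_
      rw [norm_mul, norm_mul, norm_star, norm_star, h1]
      linarith
    have h6 := hp θ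
    rw [h1]
    calc _ ≤ (2 * (‖P.valV θ G‖ * ‖P.der (P.ι o) θ‖)) ^ 2 := by gcongr
      _ = _ := by field_simp; ring
  · rw [integral_const_mul]
    exact mul_le_mul_of_nonneg_left (Real.sqrt_le_sqrt (by linarith)) (by positivity)

/-- `rel G` is a sum of squares of norms of a bounded operator. -/
theorem exists_T {G : κ → P.A} (hG : ∀ θ, P.valV θ G ≠ 0) : ∃ T : Lp ℂ 2 mu →L[ℂ] Lp ℂ 2 mu,
    ∀ V : κ' → P.A, P.rel G V = ∑ i, ‖T (P.der (P.ι (V i)))‖ ^ 2 := by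
  obtain ⟨o, o', h0, h1, -⟩ := P.outerV hG
  obtain ⟨B, hB⟩ := P.exists_mulL
  refine ⟨B (P.ι o'), fun V => ?_⟩
  simp only [norm_sq_Lp]
  rw [← integral_finsetSum _ fun i _ => integrable_sq _]
  refine integral_congr_ae ?_
  filter_upwards [ae_all_iff.2 fun i => hB (P.ι o') (P.der (P.ι (V i)))] with θ hθ
  have h2 : ‖P.val θ (P.ι o')‖ = ‖P.valV θ G‖⁻¹ := by
    rw [← h1]
    refine eq_inv_of_mul_eq_one_right ?_
    rw [← norm_mul, ← map_mul, ← map_mul, h0, map_one, map_one, norm_one]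
  simp only [hθ, norm_mul, h2, HA.dsq, Finset.mul_sum, mul_pow, inv_pow, div_eq_inv_mul]

/-- Weak lower semicontinuity. -/
theorem rel_lsc {ι : Type*} {l : Filter ι} {G : κ → P.A} (hG : ∀ θ, P.valV θ G ≠ 0) {V : ι → κ' → P.A}
    {W : κ' → P.A} (h : ∀ i (g : Lp ℂ 2 mu),
      Tendsto (fun k => ⟪g, P.der (P.ι (V k i))⟫_ℂ) l (𝓝 ⟪g, P.der (P.ι (W i))⟫_ℂ))
    {ε : ℝ} (hε : 0 < ε) : ∀ᶠ k in l, P.rel G W - ε ≤ P.rel G (V k) := by
  obtain ⟨T, hT⟩ := exists_T (κ' := κ') P hG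
  have h1 : Tendsto (fun k => ∑ i, (2 * (⟪T (P.der (P.ι (W i))), T (P.der (P.ι (V k i)))⟫_ℂ).re -
      ‖T (P.der (P.ι (W i)))‖ ^ 2)) l (𝓝 (P.rel G W)) := by
    rw [hT]
    refine tendsto_finsetSum _ fun i _ => ?_
    have h2 := (Complex.continuous_re.tendsto _).comp
      (h i (ContinuousLinearMap.adjoint T (T (P.der (P.ι (W i))))))
    simp only [Function.comp_def, ContinuousLinearMap.adjoint_inner_left] at h2
    have h3 : (⟪T (P.der (P.ι (W i))), T (P.der (P.ι (W i)))⟫_ℂ).re = ‖T (P.der (P.ι (W i)))‖ ^ 2 :=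
      (@norm_sq_eq_re_inner ℂ _ _ _ _ _).symm
    rw [h3] at h2
    convert (h2.const_mul 2).sub_const (‖T (P.der (P.ι (W i)))‖ ^ 2) using 2
    ring
  filter_upwards [h1.eventually (lt_mem_nhds (sub_lt_self _ hε))] with k hk
  refine hk.le.trans ?_
  rw [hT]
  refine Finset.sum_le_sum fun i _ => ?_
  have h4 := (Complex.re_le_norm _).trans
    (norm_inner_le_norm (𝕜 := ℂ) (T (P.der (P.ι (W i)))) (T (P.der (P.ι (V k i)))))
  nlinarith [sq_nonneg (‖T (P.der (P.ι (W i)))‖ - ‖T (P.der (P.ι (V k i)))‖)]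

theorem rel_le {G : κ → P.A} {G' V : κ' → P.A} (hG : ∀ θ, P.valV θ G ≠ 0) (hG' : ∀ θ, P.valV θ G' ≠ 0) {t : ℝ}
    (h : ∀ θ, ‖P.valV θ G'‖ ^ 2 ≤ t * ‖P.valV θ G‖ ^ 2) : P.rel G V ≤ t * P.rel G' V := by
  rw [HA.rel, HA.rel, ← integral_const_mul]
  refine integral_mono (P.integrable_rel hG V) ((P.integrable_rel hG' V).const_mul t) fun θ => ?_
  have h1 : 0 < ‖P.valV θ G‖ ^ 2 := pow_pos (norm_pos_iff.2 (hG θ)) 2
  have h2 : 0 < ‖P.valV θ G'‖ ^ 2 := pow_pos (norm_pos_iff.2 (hG' θ)) 2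
  have h3 : 0 ≤ P.dsq V θ := Finset.sum_nonneg fun i _ => by positivity
  simp only
  rw [← mul_div_assoc, div_le_div_iff₀ h1 h2]
  nlinarith [mul_le_mul_of_nonneg_left (h θ) h3]

theorem nsq_le {G : κ → P.A} (hG : ∀ θ, P.valV θ G ≠ 0) {t : ℝ} (h : ∀ θ, ‖P.valV θ G‖ ^ 2 ≤ t) :
    P.nsq G ≤ t * P.reg G := by
  rw [← P.integral_dsq, HA.reg, HA.rel, ← integral_const_mul]
  refine integral_mono (P.integrable_dsq G) ((P.integrable_rel hG G).const_mul t) fun θ => ?_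
  have h1 : 0 < ‖P.valV θ G‖ ^ 2 := pow_pos (norm_pos_iff.2 (hG θ)) 2
  have h3 : 0 ≤ P.dsq G θ := Finset.sum_nonneg fun i _ => by positivity
  simp only
  rw [← mul_div_assoc, le_div_iff₀ h1]
  nlinarith [mul_le_mul_of_nonneg_left (h θ) h3]

end C5

end Crest.Agent.R269
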