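import Crest.Agent.R269.C.Max.A

/-!
# Row 269, block C5: a priori bounds and continuity of the functional
-/

set_option autoImplicit false
set_option linter.unusedSectionVars false
set_option linter.unusedVariables false

noncomputable section

namespace Crest.Agent.R269

open Set Metric Filter Topology MeasureTheory Matrix
open Crest.AlgGeometry.ProjEmb
open scoped InnerProductSpace ContDiff

namespace C5

variable {N n : ℕ} {X : Geo N n}

theorem bdd_of_cone {C : Set (Cn (N + 1))} (hY : C ⊆ X.Y) (hc : ∀ y ∈ C, ∀ t : ℂ, t ≠ 0 → t • y ∈ C)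
    (hK : IsCompact (C ∩ sphere 0 1)) {χ : Cn (N + 1) → ℝ} (h1 : ContinuousOn χ C)
    (h2 : ∀ y ∈ C, ∀ t : ℂ, t ≠ 0 → χ (t • y) = χ y) : ∃ B, ∀ y ∈ C, χ y ≤ B := by
  obtain ⟨B, hB⟩ := hK.exists_bound_of_continuousOn (h1.mono inter_subset_left)
  refine ⟨B, fun y hy => ?_⟩
  have h0 : ‖y‖ ≠ 0 := norm_ne_zero_iff.2 (hY hy).1
  have ht : ((‖y‖⁻¹ : ℝ) : ℂ) ≠ 0 := by exact_mod_cast inv_ne_zero h0
  rw [← h2 y hy _ ht]
  refine (le_abs_self _).trans (hB _ ⟨hc y hy _ ht, ?_⟩)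
  rw [mem_sphere_zero_iff_norm, norm_smul, Complex.norm_real, norm_inv, norm_norm, inv_mul_cancel₀ h0]

theorem mem_cone {C : Set (Cn (N + 1))} (hY : C ⊆ X.Y) (hc : ∀ y ∈ C, ∀ t : ℂ, t ≠ 0 → t • y ∈ C)
    (hK : IsCompact (C ∩ sphere 0 1)) {ι : Type*} {l : Filter ι} [l.NeBot] {y : ι → Cn (N + 1)} {y₀ : Cn (N + 1)}
    (h : Tendsto y l (𝓝 y₀)) (hy : ∀ k, y k ∈ C) (h0 : y₀ ≠ 0) : y₀ ∈ C := by
  have h1 : ‖y₀‖ ≠ 0 := norm_ne_zero_iff.2 h0
  have h2 : Tendsto (fun k => ((‖y k‖⁻¹ : ℝ) : ℂ) • y k) l (𝓝 (((‖y₀‖⁻¹ : ℝ) : ℂ) • y₀)) :=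
    ((Complex.continuous_ofReal.tendsto _).comp (h.norm.inv₀ h1)).smul h
  have h3 := hK.isClosed.mem_of_tendsto h2 (Eventually.of_forall fun k => by
    have h0 : ‖y k‖ ≠ 0 := norm_ne_zero_iff.2 (hY (hy k)).1
    refine ⟨hc _ (hy k) _ (by exact_mod_cast inv_ne_zero h0), ?_⟩
    rw [mem_sphere_zero_iff_norm, norm_smul, Complex.norm_real, norm_inv, norm_norm, inv_mul_cancel₀ h0])
  have h4 := hc _ h3.1 (‖y₀‖ : ℂ) (by exact_mod_cast h1)
  rwa [smul_smul, ← Complex.ofReal_mul, mul_inv_cancel₀ h1, Complex.ofReal_one, one_smul] at h4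

theorem log_le_lin {K τ : ℝ} (hK : 0 ≤ K) (hτ : 0 < τ) :
    ∃ C, ∀ x, 0 ≤ x → K * (1 + Real.log (1 + x)) ≤ C + τ * x := by
  have hδ : 0 < τ / (K + 1) := by positivity
  refine ⟨K * (τ / (K + 1) - Real.log (τ / (K + 1))), fun x hx => ?_⟩
  have h1 := Real.log_le_sub_one_of_pos (mul_pos hδ (show 0 < 1 + x by linarith))
  rw [Real.log_mul hδ.ne' (by linarith)] at h1
  have h2 : K * (τ / (K + 1)) ≤ τ := by
    rw [← mul_div_assoc, div_le_iff₀ (by positivity)]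
    nlinarith
  nlinarith [mul_le_mul_of_nonneg_left h1 hK, mul_le_mul_of_nonneg_right h2 hx]

theorem contOn_log : ContinuousOn (fun y : Cn (N + 1) => Real.log (‖y‖ ^ 2)) X.Y :=
  (continuous_norm.pow 2).continuousOn.log fun y hy => pow_ne_zero 2 (norm_ne_zero_iff.2 hy.1)

theorem abs_le_xi {κ R : ℝ} (hκ : 0 < κ) (s : ℝ) : |s| ≤ xi κ R s / κ + R := by
  have h1 : |s| ≤ √(R ^ 2 + s ^ 2) := Real.abs_le_sqrt (by nlinarith [sq_nonneg R])
  have h2 : xi κ R s / κ + R = √(R ^ 2 + s ^ 2) := by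
    rw [xi]
    field_simp
    ring
  rwa [h2]

variable (P : HA)

theorem upper {M : ℝ} (h : X.Hyp M) (D : X.Dat) {τ : ℝ} (hτ : 0 < τ) : ∃ C₁, ∀ d G, P.Rep d G → d.G 0 ∈ D.C →
    D.L d - τ * P.reg G ≤ C₁ - τ / 2 * P.reg G - xi D.κ D.R d.s0 / 2 := by
  obtain ⟨B₁, hB₁⟩ := bdd_of_cone D.CY D.Ccone D.Ccpt D.χcont D.χhom
  obtain ⟨B₂, hB₂⟩ := D.hu.bdd
  obtain ⟨C, hC0, hC⟩ := P.TH_le h
  have hκ := D.hκ
  obtain ⟨C', hC'⟩ := log_le_lin (K := (|D.b| + D.κ) * C) (by positivity) (half_pos hτ)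
  refine ⟨36 * M + B₁ + 2 * B₂ + C', fun d G hG h0 => ?_⟩
  have hu : ContinuousOn D.u X.Y := fun y hy => (D.hu.1 y hy.1).continuousAt.continuousWithinAt
  have h1 := h.phi_le d D.hℓ (D.Cℓ _ h0)
  have h2 := hB₁ _ h0
  have h3 := mul_nonneg D.ha d.TB_nonneg
  have h4 : -B₂ ≤ d.avg D.u := by
    rw [← d.avg_const (-B₂)]
    exact d.avg_mono continuousOn_const hu fun y hy => (abs_le.1 (hB₂ y hy)).1
  have h5 := (abs_le.1 (hB₂ _ (D.CY h0))).2
  have h6 := d.xi_le_avg hκ.le D.hR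
  have h7 := mul_le_mul_of_nonneg_right (neg_abs_le D.b) d.TH_nonneg
  have h8 := mul_le_mul_of_nonneg_left (hC d G hG) (show 0 ≤ |D.b| + D.κ by positivity)
  have h9 := hC' _ (P.rel_nonneg G G)
  rw [← HA.reg] at h9
  simp only [Geo.Dat.L, Geo.NN]
  nlinarith

theorem evV_smul {κ : Type} [Fintype κ] (z : ℂ) (a : P.A) (G : κ → P.A) :
    P.evV z (a • G) = P.ev z a • P.evV z G := by
  ext i
  simp [HA.evV]

theorem bounds {M : ℝ} (h : X.Hyp M) (R S : ℝ) : ∃ c C : ℝ, 0 < c ∧ ∀ (d : X.Disc) G, P.Rep d G → P.reg G ≤ R →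
    |d.s0| ≤ S → (∀ z ∈ closedBall (0 : ℂ) 1, c ≤ ‖P.evV z G‖) ∧ ∀ i, ‖G i‖ ≤ C := by
  obtain ⟨C, hC0, hC⟩ := P.TH_le h
  obtain ⟨C', hC0', hC'⟩ := P.lower_of_hyp h
  set A : ℝ := 2 * Real.pi * √(8 * R) + C * (1 + Real.log (1 + R)) + S with hA
  set L : ℝ := C' * (1 + Real.log (1 + 6 * R)) with hL
  refine ⟨Real.exp (-(L + A) / 2), Real.exp (A / 2) + √(Real.exp A * R), Real.exp_pos _,
    fun d G hG hR hS => ?_⟩
  have hm : ∀ θ, circleMap 0 1 θ ∈ closedBall (0 : ℂ) 1 := fun θ => circleMap_mem_closedBall 0 zero_le_one θ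
  have hY := hG.inY
  have hne : ∀ θ, P.valV θ G ≠ 0 := fun θ => (hY _ (hm θ)).1
  have hp : ∀ θ, 0 < ‖P.valV θ G‖ := fun θ => norm_pos_iff.2 (hne θ)
  have hr0 : 0 ≤ P.reg G := P.rel_nonneg G G
  have h1 : d.TH ≤ C * (1 + Real.log (1 + R)) := (hC d G hG).trans (by gcongr)
  have h2 := d.TH_nonneg
  have hi : Integrable (fun θ => Real.log (‖P.valV θ G‖ ^ 2)) mu :=
    integrable_mu (((P.continuous_valV G).norm.pow 2).log fun θ => (pow_pos (hp θ) 2).ne')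
  have h3 : ∀ θ, |Real.log (‖P.valV θ G‖ ^ 2)| ≤ A := fun θ => by
    have h4 : ∀ θ', |Real.log (‖P.valV θ G‖ ^ 2) - Real.log (‖P.valV θ' G‖ ^ 2)| ≤ 2 * Real.pi * √(8 * R) :=
      fun θ' => (osc_logV P hne θ θ').trans (by gcongr)
    have h5 := norm_integral_le_of_norm_le_const (μ := mu)
      (f := fun θ' => Real.log (‖P.valV θ G‖ ^ 2) - Real.log (‖P.valV θ' G‖ ^ 2)) (Eventually.of_forall h4)
    rw [integral_sub (integrable_const _) hi, ← hG.avg fun y => Real.log (‖y‖ ^ 2)] at h5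
    simp only [integral_const, probReal_univ, smul_eq_mul, one_mul, mul_one, Real.norm_eq_abs] at h5
    rw [Geo.Disc.TH] at h1 h2
    rw [abs_le] at h5 hS ⊢
    constructor <;> linarith
  have h4 : ∀ θ, ‖P.valV θ G‖ ^ 2 ≤ Real.exp A := fun θ =>
    (Real.log_le_iff_le_exp (pow_pos (hp θ) 2)).1 (abs_le.1 (h3 θ)).2
  have hsq : ∀ t : ℝ, Real.exp (t / 2) ^ 2 = Real.exp t := fun t => by
    rw [← Real.exp_nat_mul]
    congr 1
    push_cast
    ring
  have h5 : ∀ θ, ‖P.valV θ G‖ ≤ Real.exp (A / 2) := fun θ =>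
    le_of_sq_le_sq ((h4 θ).trans_eq (hsq A).symm) (Real.exp_pos _).le
  have h6 : ∀ θ, Real.exp (-A / 2) ≤ ‖P.valV θ G‖ := fun θ =>
    le_of_sq_le_sq ((hsq _).trans_le ((Real.le_log_iff_exp_le (pow_pos (hp θ) 2)).1
      (abs_le.1 (h3 θ)).1)) (hp θ).le
  refine ⟨fun z hz => ?_, fun i => ?_⟩
  · obtain ⟨o, o', h0, h7, h8, -, h9⟩ := P.outerV hne
    have ho' : ∀ z, P.ev z o' ≠ 0 := fun z hz => by
      have := congrArg (P.ev z) h0
      rw [map_mul, hz, mul_zero, map_one] at this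
      exact zero_ne_one this
    have hY' : P.InY X (o' • G) := fun z hz => by
      rw [evV_smul]
      exact X.smul_mem_Y (hY z hz) (ho' z)
    have hn0 : 0 ≤ P.nsq (o' • G) := Finset.sum_nonneg fun i _ => by positivity
    have h10 : -L ≤ Real.log (‖P.evV z (o' • G)‖ ^ 2) := by
      refine le_trans (neg_le_neg ?_) (hC' _ hY' h8 z hz)
      rw [hL]
      gcongr
      linarith
    have h11 : ‖P.ev z o'‖ ≤ Real.exp (A / 2) := P.norm_ev_le o' (fun θ => by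
      have h12 : ‖P.valV θ G‖ * ‖P.val θ (P.ι o')‖ = 1 := by
        rw [← h7, ← norm_mul, ← map_mul, ← map_mul, h0, map_one, map_one, norm_one]
      have h13 : Real.exp (-A / 2) * Real.exp (A / 2) = 1 := by
        rw [← Real.exp_add, show -A / 2 + A / 2 = 0 by ring, Real.exp_zero]
      have h14 := mul_le_mul_of_nonneg_right (h6 θ) (norm_nonneg (P.val θ (P.ι o')))
      exact le_of_mul_le_mul_left (h14.trans_eq (h12.trans h13.symm)) (Real.exp_pos _)) hz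
    have h12 : Real.exp (-L / 2) ≤ ‖P.evV z (o' • G)‖ :=
      le_of_sq_le_sq ((hsq _).trans_le ((Real.le_log_iff_exp_le
        (pow_pos (norm_pos_iff.2 (hY' z hz).1) 2)).1 h10)) (norm_nonneg _)
    rw [evV_smul, norm_smul] at h12
    have h13 : Real.exp (A / 2) * Real.exp (-(L + A) / 2) = Real.exp (-L / 2) := by
      rw [← Real.exp_add]
      congr 1
      ring
    exact le_of_mul_le_mul_left (h13.trans_le (h12.trans (mul_le_mul_of_nonneg_right h11 (norm_nonneg _))))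
      (Real.exp_pos _)
  · rw [← P.norm_ι]
    refine (P.norm_le _ (Real.exp (A / 2)) fun θ => ?_).trans (add_le_add le_rfl (Real.le_sqrt_of_sq_le ?_))
    · rw [← P.valV_apply]
      exact (PiLp.norm_apply_le _ i).trans (h5 θ)
    · refine le_trans ?_ ((nsq_le P hne h4).trans (mul_le_mul_of_nonneg_left hR (Real.exp_pos _).le))
      exact Finset.single_le_sum (f := fun i => ‖P.der (P.ι (G i))‖ ^ 2) (fun j _ => by positivity)
        (Finset.mem_univ i)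

section lim

variable {ι : Type*} {l : Filter ι} {d : ι → X.Disc} {d₀ : X.Disc}

theorem contG (d : X.Disc) : ContinuousOn d.G (closedBall 0 1) := by
  simpa [closure_ball (0 : ℂ) one_ne_zero] using d.hG.continuousOn

theorem unif_f (h : TendstoUniformlyOn (fun k => (d k).G) d₀.G l (closedBall 0 1)) {f : Cn (N + 1) → ℝ}
    (hf : ContinuousOn f X.Y) :
    TendstoUniformlyOn (fun k z => f ((d k).G z)) (fun z => f (d₀.G z)) l (closedBall 0 1) :=
  unif_comp ((isCompact_closedBall 0 1).image_of_continuousOn (contG d₀))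
    (by rintro _ ⟨z, hz, rfl⟩; exact d₀.memY z hz) hf (fun z hz => mem_image_of_mem _ hz)
    (Eventually.of_forall fun k => (d k).memY) h

theorem avg_lim (h : TendstoUniformlyOn (fun k => (d k).G) d₀.G l (closedBall 0 1)) {f : Cn (N + 1) → ℝ}
    (hf : ContinuousOn f X.Y) : Tendsto (fun k => (d k).avg f) l (𝓝 (d₀.avg f)) :=
  tendsto_avg (Eventually.of_forall fun k => hf.comp (contG _) (d k).memY) (hf.comp (contG _) d₀.memY)
    (unif_f h hf)

theorem ctr_lim (h : TendstoUniformlyOn (fun k => (d k).G) d₀.G l (closedBall 0 1)) {f : Cn (N + 1) → ℝ}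
    (hf : ContinuousOn f X.Y) : Tendsto (fun k => f ((d k).G 0)) l (𝓝 (f (d₀.G 0))) :=
  (unif_f h hf).tendsto_at (mem_closedBall_self zero_le_one)

theorem phi_eq (d : X.Disc) {ℓ : Cn (N + 1) →L[ℂ] ℂ} (h0 : ℓ (d.G 0) ≠ 0) : d.Phi ℓ =
    ‖(ℓ (d.G 0))⁻¹ • deriv d.G 0 + (-ℓ (deriv d.G 0) / ℓ (d.G 0) ^ 2) • d.G 0‖ ^ 2 := by
  have h1 : HasDerivAt d.G (deriv d.G 0) 0 :=
    (d.hG.differentiableAt isOpen_ball (mem_ball_self one_pos)).hasDerivAt
  have h2 : HasDerivAt (fun z => ℓ (d.G z)) (ℓ (deriv d.G 0)) 0 := ℓ.hasFDerivAt.comp_hasDerivAt 0 h1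
  rw [Geo.Disc.Phi, ((h2.fun_inv h0).fun_smul h1).deriv]

theorem phi_lim (h : TendstoUniformlyOn (fun k => (d k).G) d₀.G l (closedBall 0 1)) {ℓ : Cn (N + 1) →L[ℂ] ℂ}
    (h0 : ℓ (d₀.G 0) ≠ 0) : Tendsto (fun k => (d k).Phi ℓ) l (𝓝 (d₀.Phi ℓ)) := by
  have h1 := h.tendsto_at (mem_closedBall_self zero_le_one)
  have h2 : Tendsto (fun k => deriv (d k).G 0) l (𝓝 (deriv d₀.G 0)) :=
    ((h.mono ball_subset_closedBall).tendstoLocallyUniformlyOn.deriv
      (Eventually.of_forall fun k => (d k).hG.differentiableOn) isOpen_ball).tendsto_at (mem_ball_self one_pos)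
  have h3 := (ℓ.continuous.tendsto _).comp h1
  have h4 := (ℓ.continuous.tendsto _).comp h2
  rw [phi_eq d₀ h0]
  refine ((((h3.inv₀ h0).smul h2).add ((h4.neg.div (h3.pow 2) (pow_ne_zero 2 h0)).smul h1)).norm.pow 2).congr' ?_
  filter_upwards [h3.eventually_ne h0] with k hk
  exact (phi_eq (d k) hk).symm

theorem TB_lim {G : ι → Fin (N + 1) → P.A} {G₀ : Fin (N + 1) → P.A} (hG : ∀ k, P.Rep (d k) (G k))
    (hG₀ : P.Rep d₀ G₀) (h : TendstoUniformlyOn (fun k => (d k).G) d₀.G l (closedBall 0 1)) :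
    Tendsto (fun k => (d k).TB) l (𝓝 d₀.TB) := by
  obtain ⟨b, hb⟩ := P.exists_lift hG₀.inY
  set Ψ : ℂ × Cn (N + 1) → PE N n := fun q => ∑ f, P.ev q.1 (b f) • X.dv f q.2 with hΨ
  have hΨc : ContinuousOn Ψ (closedBall 0 1 ×ˢ univ) := by
    refine continuousOn_finsetSum _ fun f _ => ContinuousOn.fun_smul ?_ ?_
    · have := (P.ev_diff (b f)).continuousOn
      rw [closure_ball (0 : ℂ) one_ne_zero] at this
      exact this.comp continuousOn_fst fun q hq => hq.1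
    · exact ((continuous_iff_continuousAt.2 fun y => (X.analyticAt_dv f y).continuousAt).comp
        continuous_snd).continuousOn
  have hpc : ∀ d : X.Disc, ContinuousOn (fun z => Ψ (z, d.G z)) (closedBall 0 1) := fun d =>
    hΨc.comp (continuousOn_id.prodMk (contG d)) fun z hz => ⟨hz, mem_univ _⟩
  have hTB : ∀ (d : X.Disc) G, P.Rep d G → (∀ z ∈ closedBall (0 : ℂ) 1, Ψ (z, d.G z) ≠ 0) →
      d.TB = Real.circleAverage (fun z => Real.log (‖Ψ (z, d.G z)‖ ^ 2)) 0 1 -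
        Real.log (‖Ψ (0, d.G 0)‖ ^ 2) := fun d G hG hne => by
    obtain ⟨d', h1, h2⟩ := P.exists_disc hG.inY (b := b) fun z hz => by
      rw [← hG z hz]
      exact hne z hz
    have h3 : ∀ z ∈ closedBall (0 : ℂ) 1, d'.p z = Ψ (z, d.G z) := fun z hz => by rw [h2, hG z hz]
    rw [d.TB_congr d' fun z hz => by rw [h1, hG z hz], Geo.Disc.TB, h3 0 (mem_closedBall_self zero_le_one)]
    congr 1
    simp only [circleAverage_eq_mu]
    exact integral_congr_ae (Eventually.of_forall fun θ => by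
      simp only [h3 _ (circleMap_mem_closedBall 0 zero_le_one θ)])
  have hne₀ : ∀ z ∈ closedBall (0 : ℂ) 1, Ψ (z, d₀.G z) ≠ 0 := fun z hz => by
    rw [hG₀ z hz]
    exact hb z hz
  have h1 : TendstoUniformlyOn (fun k z => Ψ (z, (d k).G z)) (fun z => Ψ (z, d₀.G z)) l (closedBall 0 1) := by
    refine unif_comp (g := fun k z => (z, (d k).G z)) (g₀ := fun z => (z, d₀.G z))
      ((isCompact_closedBall 0 1).image_of_continuousOn (continuousOn_id.prodMk (contG d₀)))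
      (by rintro _ ⟨z, hz, rfl⟩; exact ⟨hz, mem_univ _⟩) hΨc (fun z hz => mem_image_of_mem _ hz)
      (Eventually.of_forall fun k z hz => ⟨hz, mem_univ _⟩) ?_
    rw [Metric.tendstoUniformlyOn_iff] at h ⊢
    intro ε hε
    filter_upwards [h ε hε] with k hk z hz
    rw [Prod.dist_eq, dist_self]
    exact max_lt hε (hk z hz)
  have h2 : ∀ᶠ k in l, ∀ z ∈ closedBall (0 : ℂ) 1, Ψ (z, (d k).G z) ≠ 0 := by
    obtain ⟨z₀, hz₀, hmin⟩ := (isCompact_closedBall (0 : ℂ) 1).exists_isMinOn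
      ⟨0, mem_closedBall_self zero_le_one⟩ (hpc d₀).norm
    filter_upwards [Metric.tendstoUniformlyOn_iff.1 h1 _ (norm_pos_iff.2 (hne₀ z₀ hz₀))] with k hk z hz h0
    have h3 := hk z hz
    rw [h0, dist_zero_right] at h3
    exact h3.not_ge (hmin hz)
  have hlog : ContinuousOn (fun y : PE N n => Real.log (‖y‖ ^ 2)) {0}ᶜ :=
    (continuous_norm.pow 2).continuousOn.log fun y hy => pow_ne_zero 2 (norm_ne_zero_iff.2 hy)
  have h3 := unif_comp ((isCompact_closedBall 0 1).image_of_continuousOn (hpc d₀))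
    (by rintro _ ⟨z, hz, rfl⟩; exact hne₀ z hz) hlog (fun z hz => mem_image_of_mem _ hz) h2 h1
  rw [hTB d₀ G₀ hG₀ hne₀]
  refine ((tendsto_avg (h2.mono fun k hk => hlog.comp (hpc _) hk) (hlog.comp (hpc _) hne₀) h3).sub
    (h3.tendsto_at (mem_closedBall_self zero_le_one))).congr' ?_
  filter_upwards [h2] with k hk
  exact (hTB _ _ (hG k) hk).symm

theorem L_lim (D : X.Dat) {G : ι → Fin (N + 1) → P.A} {G₀ : Fin (N + 1) → P.A} (hG : ∀ k, P.Rep (d k) (G k))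
    (hG₀ : P.Rep d₀ G₀) (hC : ∀ k, (d k).G 0 ∈ D.C) (hC₀ : d₀.G 0 ∈ D.C)
    (h : TendstoUniformlyOn (fun k => (d k).G) d₀.G l (closedBall 0 1)) :
    Tendsto (fun k => D.L (d k)) l (𝓝 (D.L d₀)) := by
  have hu : ContinuousOn D.u X.Y := fun y hy => (D.hu.1 y hy.1).continuousAt.continuousWithinAt
  have hxi : ContinuousOn (fun y : Cn (N + 1) => xi D.κ D.R (Real.log (‖y‖ ^ 2))) X.Y :=
    (contDiff_xi D.κ D.hR).continuous.comp_continuousOn contOn_log
  have h0 : D.ℓ (d₀.G 0) ≠ 0 := fun h0 => by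
    have := D.Cℓ _ hC₀
    rw [h0, norm_zero, mul_zero, norm_le_zero_iff] at this
    exact (D.CY hC₀).1 this
  have hχ : Tendsto (fun k => D.χ ((d k).G 0)) l (𝓝 (D.χ (d₀.G 0))) :=
    (D.χcont _ hC₀).tendsto.comp (tendsto_nhdsWithin_iff.2
      ⟨h.tendsto_at (mem_closedBall_self zero_le_one), Eventually.of_forall hC⟩)
  exact ((phi_lim h h0).add hχ).add (((((((TB_lim P hG hG₀ h).const_mul _).add
    (((avg_lim h contOn_log).sub (ctr_lim h contOn_log)).const_mul _)).add (avg_lim h hu)).sub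
    (ctr_lim h hu)).neg.add ((ctr_lim h hxi).div_const 2)).sub (avg_lim h hxi))

end lim

end C5

end Crest.Agent.R269
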